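import Vale.Agent.P232.TreeDef

/-!
# P232: the certified search for a general concave isoperimetric function (definitions)

`wm X / 10^10` is a lower bound of `Iso (X / 10^6) ^ 2`.
-/

namespace Vale.Agent.P232.G

open Vale.Agent.P232.N5 (M isq nd ev)

/-- lower bound of `Iso`, in units `1/M` -/
def isoL (wm : ℕ → ℕ) (X : ℕ) : ℕ := isq (wm X * 100)

/-- `r` is admissible at `X` for the line with values `la` at `b1`, `mu` at `c2` -/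
def nodeOK (wm : ℕ → ℕ) (b1 c2 la mu X r : ℕ) : Bool :=
  Nat.ble b1 X && Nat.ble X c2 && Nat.ble c2 M && Nat.ble r M &&
  Nat.ble (10 ^ 10 * (la * (c2 - X) + mu * (X - b1)) ^ 2)
    (wm X * (M ^ 2 - r ^ 2) * (c2 - b1) ^ 2)

/-- proposal for `r` -/
def rnode (wm : ℕ → ℕ) (b1 c2 la mu X : ℕ) : ℕ :=
  isq (M ^ 2 - (10 ^ 10 * (la * (c2 - X) + mu * (X - b1)) ^ 2 /
        (wm X * (c2 - b1) ^ 2) + 1))

/-- trapezoidal sum -/
def go (wm : ℕ → ℕ) (b1 c2 la mu lo hi : ℕ) : ℕ → ℕ → ℕ → ℕ → ℕ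
  | 0, _, _, acc => acc
  | j + 1, X, r, acc =>
    bif nodeOK wm b1 c2 la mu (nd lo hi (16 - j)) (rnode wm b1 c2 la mu (nd lo hi (16 - j))) &&
      Nat.ble X (nd lo hi (16 - j)) && Nat.ble (nd lo hi (16 - j)) hi then
      go wm b1 c2 la mu lo hi j (nd lo hi (16 - j)) (rnode wm b1 c2 la mu (nd lo hi (16 - j)))
        (acc + (nd lo hi (16 - j) - X) * (r + rnode wm b1 c2 la mu (nd lo hi (16 - j))))
    else 0

/-- lower bound of `2 M N cal` -/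
def tt (wm : ℕ → ℕ) (b1 b2 c1 c2 la mu : ℕ) : ℕ :=
  bif Nat.blt b2 c1 && nodeOK wm b1 c2 la mu b2 (rnode wm b1 c2 la mu b2) then
    go wm b1 c2 la mu b2 c1 16 b2 (rnode wm b1 c2 la mu b2) 0
  else 0

/-- leaf; `ft b1 b2 c1 c2 la mu T Va Vb` is the final test -/
def leaf (wm : ℕ → ℕ) (ft : ℕ → ℕ → ℕ → ℕ → ℕ → ℕ → ℕ → ℕ → ℕ → Bool)
    (b1 b2 c1 c2 V1 V2 : ℕ) : Bool :=
  nodeOK wm b1 c2 (isoL wm b1) (isoL wm c2) b1 0 &&
  nodeOK wm b1 c2 (isoL wm b1) (isoL wm c2) c2 0 &&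
  Nat.blt b1 c2 &&
  (Nat.blt (min V2 c2) (max V1 b1) ||
    ft b1 b2 c1 c2 (isoL wm b1) (isoL wm c2)
      (tt wm b1 b2 c1 c2 (isoL wm b1) (isoL wm c2)) (max V1 b1) (min V2 c2))

def search (wm : ℕ → ℕ) (ft : ℕ → ℕ → ℕ → ℕ → ℕ → ℕ → ℕ → ℕ → ℕ → Bool)
    (skp : ℕ → ℕ → ℕ → ℕ → Bool) (V1 V2 : ℕ) : ℕ → ℕ → ℕ → ℕ → ℕ → Bool
  | 0, b1, b2, c1, c2 =>
    Nat.blt c2 V1 || Nat.blt V2 b1 || Nat.ble c2 b1 || skp b1 b2 c1 c2 ||
      leaf wm ft b1 b2 c1 c2 V1 V2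
  | k + 1, b1, b2, c1, c2 =>
    Nat.blt c2 V1 || Nat.blt V2 b1 || Nat.ble c2 b1 || skp b1 b2 c1 c2 ||
      leaf wm ft b1 b2 c1 c2 V1 V2 ||
      (bif Nat.ble ((c2 - c1) * max (rnode wm b1 c2 (isoL wm b1) (isoL wm c2) c1) 250000)
          ((b2 - b1) * max (rnode wm b1 c2 (isoL wm b1) (isoL wm c2) b2) 250000) then
        search wm ft skp V1 V2 k b1 ((b1 + b2) / 2) c1 c2 &&
          search wm ft skp V1 V2 k ((b1 + b2) / 2) b2 c1 c2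
      else
        search wm ft skp V1 V2 k b1 b2 c1 ((c1 + c2) / 2) &&
          search wm ft skp V1 V2 k b1 b2 ((c1 + c2) / 2) c2)

end Vale.Agent.P232.G
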