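import Vale.Agent.P232.NumB2Def

/-!
# P232, module 2NB, outside the T-box: certified search in `(b, c, V)` (definitions)

Positions and values are in units of `10⁻⁶`.  Profiles `KC` (weight `0.13`) and `I2` (weight
`0.87`).  The second line has the values `la` at `b1` and `mu` at `c2`, the first one lies `u`
above it.  The tree of the search is given explicitly.
-/

namespace Vale.Agent.P232.NB1

open Vale.Agent.P232.N5 (M)
open Vale.Agent.P232.NB2 (fc mn mx isq)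

/-- proposal for the lower bound of `KC` -/
def kc (X : ℕ) : ℕ := isq (31415 * (M - X) * 100)

/-- proposal for the lower bound of `I2` -/
def i2 (X : ℕ) : ℕ := mn (isq (31415 * X * 100)) (mn M (isq (31415 * (M - X) * 100)))

/-- the inequalities at a node; `n / (10⁶ d)` and `n1 / (10⁶ d)` are the two lines,
`s = (M² - r²) d²` -/
def ndC (X n n1 s : ℕ) : Bool :=
  Nat.ble (n * n) s &&
  (Nat.ble (10000000000 * (n * n)) (31415 * X * s) &&
  (Nat.ble (10000000000 * (n * n)) (31415 * (M - X) * s) &&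
    Nat.ble (10000000000 * (n1 * n1)) (31415 * (M - X) * s)))

/-- `r` is admissible at `X` for both lines -/
def ndOK (b1 c2 la mu u X r : ℕ) : Bool :=
  Nat.ble b1 X && (Nat.ble X c2 && (Nat.ble r M &&
  (fc (la * (c2 - X) + mu * (X - b1)) fun n =>
    fc ((M * M - r * r) * ((c2 - b1) * (c2 - b1))) fun s =>
      ndC X n (n + u * (c2 - b1)) s)))

/-- the largest of the squared quotients, in units `10⁻¹²` -/
def rat (X n n1 d2 : ℕ) : ℕ :=
  mx (10000000000 * (n * n) / (31415 * mn X (M - X) * d2))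
    (mx (n * n / d2) (10000000000 * (n1 * n1) / (31415 * (M - X) * d2)))

/-- proposal for `r` -/
def rn (b1 c2 la mu u X : ℕ) : ℕ :=
  fc (la * (c2 - X) + mu * (X - b1)) fun n =>
    isq (M * M - (rat X n (n + u * (c2 - b1)) ((c2 - b1) * (c2 - b1)) + 1))

/-- nodes, graded towards both ends (`16` intervals) -/
def nd (lo hi j : ℕ) : ℕ := lo + (hi - lo) * (48 * j * j - 2 * j * j * j) / 4096

/-- trapezoidal sum -/
def go (b1 c2 la mu u lo hi : ℕ) : ℕ → ℕ → ℕ → ℕ → ℕ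
  | 0, _, _, acc => acc
  | j + 1, X, r, acc =>
    fc (nd lo hi (16 - j)) fun Y => fc (rn b1 c2 la mu u Y) fun s =>
      bif ndOK b1 c2 la mu u Y s && (Nat.ble X Y && Nat.ble Y hi) then
        fc (acc + (Y - X) * (r + s)) fun acc' => go b1 c2 la mu u lo hi j Y s acc'
      else 0

/-- lower bound of `2 M N cal2` -/
def tt (b1 c2 la mu u b2 c1 : ℕ) : ℕ :=
  bif Nat.blt b2 c1 then
    fc (rn b1 c2 la mu u b2) fun r =>
      bif ndOK b1 c2 la mu u b2 r then go b1 c2 la mu u b2 c1 16 b2 r 0 else 0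
  else 0

/-- slab test with slack `10⁻⁶` -/
def t2 (b1 c2 la mu T Va Vb : ℕ) : Bool :=
  Nat.ble (2 * M * (M + 1) * (c2 - b1)) (N5.ev b1 c2 la mu T Va) &&
  Nat.ble (2 * M * (M + 1) * (c2 - b1)) (N5.ev b1 c2 la mu T Vb)

/-- tube test with slack `10⁻⁶` -/
def t0 (b1 c2 la mu T Va Vb t : ℕ) : Bool :=
  Nat.ble 1 t &&
  (Nat.ble ((c2 - b1) * (31416 * Va * M * M + t * t * M * 10000 + 20000 * M * t))
    (N5.ev b1 c2 la mu T Va * 10000 * t) &&
  Nat.ble ((c2 - b1) * (31416 * Vb * M * M + t * t * M * 10000 + 20000 * M * t))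
    (N5.ev b1 c2 la mu T Vb * 10000 * t))

/-- tangency point for the tube test -/
def tg (b1 c2 la mu Va Vb : ℕ) : ℕ :=
  bif Nat.blt la mu then
    mx (isq (31416 * Va * 100))
      (mn (isq (31416 * Vb * 100)) (31416 * M * (c2 - b1) / (20000 * (mu - la))))
  else isq (31416 * Vb * 100)

/-- leaf with given lines -/
def lf1 (b1 b2 c1 c2 la mu u Va Vb : ℕ) : Bool :=
  Nat.blt b1 c2 && (Nat.ble c2 M &&
  (ndOK b1 c2 la mu u b1 0 && (ndOK b1 c2 la mu u c2 0 &&
  (Nat.blt Vb Va ||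
    (fc (tt b1 c2 la mu u b2 c1 + 260000 * u) fun T =>
      t2 b1 c2 la mu T Va Vb || fc (tg b1 c2 la mu Va Vb) fun t => t0 b1 c2 la mu T Va Vb t)))))

/-- leaf -/
def leaf (b1 b2 c1 c2 V1 V2 : ℕ) : Bool :=
  fc (i2 b1) fun la =>
  fc (i2 c2) fun mu =>
  fc (mn (kc b1 - la) (kc c2 - mu)) fun u =>
  fc (mx V1 b1) fun Va =>
  fc (mn V2 c2) fun Vb => lf1 b1 b2 c1 c2 la mu u Va Vb

/-- the regions that are not treated here -/
def sk (b1 b2 c1 c2 V1 V2 : ℕ) : Bool :=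
  Nat.blt c2 V1 || (Nat.blt V2 b1 ||
  ((Nat.ble b2 1000 && (Nat.ble 550000 c1 && (Nat.ble c2 820000 && (Nat.ble 284000 V1 &&
    Nat.ble V2 323600)))) ||
  (Nat.ble 300000 V1 && (Nat.ble b2 7000 && Nat.ble 993000 c1))))

/-- search trees; the letter gives the variable whose interval is cut at `m` -/
inductive Tr
  | S
  | L
  | B (m : ℕ) (l r : Tr)
  | C (m : ℕ) (l r : Tr)
  | V (m : ℕ) (l r : Tr)

/-- the check of a search tree -/
def chk : Tr → ℕ → ℕ → ℕ → ℕ → ℕ → ℕ → Bool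
  | .S, b1, b2, c1, c2, V1, V2 => sk b1 b2 c1 c2 V1 V2
  | .L, b1, b2, c1, c2, V1, V2 => leaf b1 b2 c1 c2 V1 V2
  | .B m l r, b1, b2, c1, c2, V1, V2 => chk l b1 m c1 c2 V1 V2 && chk r m b2 c1 c2 V1 V2
  | .C m l r, b1, b2, c1, c2, V1, V2 => chk l b1 b2 c1 m V1 V2 && chk r b1 b2 m c2 V1 V2
  | .V m l r, b1, b2, c1, c2, V1, V2 => chk l b1 b2 c1 c2 V1 m && chk r b1 b2 c1 c2 m V2

end Vale.Agent.P232.NB1
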