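import Vale.Agent.P232.NB1Def

/-!
# P232, module 2NB, outside the T-box: runs of the certified search
-/

namespace Vale.Agent.P232.NB1

/-- search tree -/
def tr0 : Tr :=
  (.C 631500 (.B 137500 (.C 447250 (.C 355125 (.B 68750 .L .L) (.B 68750 (.B 34375 (.B 17187 .L
  .L) .L) (.B 103125 .L .L))) (.B 68750 (.B 34375 (.C 539375 (.B 17187 (.C 493312 .L (.B 8593
  (.B 4296 .L .L) .L)) .L) (.B 17187 (.B 8593 (.C 585437 (.C 562406 .L (.B 4296 .L .L)) (.B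
  4296 (.C 608468 (.C 596952 .L .L) (.B 2148 (.C 619984 .L .L) .L)) .L)) .L) .L)) (.C 539375
  (.B 51562 .L .L) .L)) (.C 539375 (.B 103125 .L .L) (.B 103125 .L .L)))) (.C 447250 (.C 355125
  (.B 206250 .L .L) (.B 206250 (.B 171875 .L .L) .L)) (.B 206250 (.C 539375 (.B 171875 .L .L)
  .L) (.B 240625 .L .L)))) (.B 137500 (.C 815750 (.B 68750 (.B 34375 (.C 723625 (.B 17187 (.B
  8593 (.C 677562 (.B 4296 (.B 2148 (.C 654531 (.C 643015 (.B 1074 .L .L) (.B 1074 .L .L)) (.C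
  666046 (.B 1074 .L .L) (.B 1074 (.B 537 .L .L) .L))) .L) .L) (.B 4296 (.C 700593 (.B 2148 .L
  .L) .L) .L)) .L) .L) (.B 17187 (.C 769687 (.B 8593 (.B 4296 .L .L) .L) (.B 8593 .L .L)) .L))
  (.B 51562 .L .L)) (.B 103125 .L .L)) (.B 68750 (.B 34375 (.C 907875 (.C 861812 (.B 17187 .L
  .L) .L) (.C 953937 .L (.B 17187 .L .L))) .L) .L)) (.C 815750 .L .L)))

theorem run0 : chk tr0 0 275000 263000 1000000 263000 275000 = true := by
  decide +kernel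

/-- search tree -/
def tr1 : Tr :=
  (.C 637500 (.B 142000 (.C 456250 (.C 365625 (.B 71000 .L .L) (.B 71000 (.B 35500 (.B 17750 .L
  .L) .L) (.C 410937 .L .L))) (.B 71000 (.B 35500 (.C 546875 (.B 17750 (.C 501562 .L (.B 8875
  (.B 4437 .L .L) .L)) .L) (.B 17750 (.B 8875 (.C 592187 (.C 569531 (.B 4437 .L .L) (.B 4437
  (.B 2218 .L .L) .L)) (.B 4437 (.C 614843 (.C 603515 .L (.B 2218 .L .L)) (.B 2218 (.C 626171
  .L (.B 1109 .L .L)) .L)) .L)) .L) .L)) (.C 546875 (.B 53250 .L .L) (.B 53250 .L .L))) (.C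
  546875 (.B 106500 (.B 88750 .L .L) (.B 124250 .L .L)) (.B 106500 .L .L)))) (.C 456250 (.C
  365625 (.B 213000 .L .L) (.B 213000 (.C 410937 .L .L) (.B 248500 .L .L))) (.B 213000 (.C
  546875 (.B 177500 .L .L) .L) (.B 248500 .L .L)))) (.B 142000 (.C 818750 (.B 71000 (.B 35500
  (.C 728125 (.B 17750 (.B 8875 (.C 682812 (.B 4437 (.B 2218 (.C 660156 (.B 1109 (.C 648828 (.C
  643164 .L .L) (.C 654492 (.B 554 .L .L) (.B 554 .L .L))) .L) (.B 1109 (.C 671484 (.B 554 (.C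
  665820 (.B 277 .L .L) (.B 277 (.B 138 .L .L) .L)) .L) (.B 554 (.C 677148 (.B 277 (.C 674316
  .L (.B 138 .L .L)) .L) (.B 277 (.B 138 .L .L) .L)) .L)) .L)) .L) .L) (.B 4437 (.C 705468 (.B
  2218 (.C 694140 (.B 1109 .L .L) .L) .L) (.B 2218 .L .L)) .L)) .L) .L) (.B 17750 (.C 773437
  (.B 8875 (.C 750781 (.B 4437 .L .L) .L) .L) (.B 8875 .L .L)) .L)) (.C 728125 .L .L)) (.B
  106500 .L .L)) (.B 71000 (.B 35500 (.C 909375 (.B 17750 (.C 864062 .L .L) .L) (.C 954687 .L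
  (.C 977343 .L (.B 17750 .L .L)))) .L) .L)) (.C 818750 (.B 213000 .L .L) .L)))

theorem run1 : chk tr1 0 284000 275000 1000000 275000 284000 = true := by
  decide +kernel

/-- search tree -/
def tr2 : Tr :=
  (.C 642000 (.B 150000 (.C 463000 (.C 373500 (.B 75000 .L .L) (.B 75000 (.B 37500 (.B 18750 .L
  .L) .L) (.C 418250 .L (.B 112500 .L .L)))) (.B 75000 (.B 37500 (.C 552500 (.B 18750 (.B 1000
  (.C 550000 (.C 506500 .L .L) .S) (.C 507750 .L .L)) (.B 28125 .L .L)) (.B 18750 (.B 1000 .S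
  (.C 597250 (.B 9875 .L .L) (.B 9875 (.B 5437 .L .L) .L))) (.B 28125 .L .L))) (.C 552500 (.C
  507750 .L .L) (.C 597250 .L .L))) (.C 552500 (.B 112500 (.C 507750 .L .L) (.C 507750 .L .L))
  (.B 112500 (.B 93750 .L .L) (.B 131250 .L .L))))) (.C 463000 (.C 373500 (.B 225000 (.B 187500
  .L .L) .L) (.B 225000 (.C 418250 (.B 187500 .L .L) (.B 187500 .L .L)) (.B 262500 .L .L))) (.B
  225000 (.C 552500 (.B 187500 (.C 507750 .L .L) (.B 206250 .L .L)) (.B 187500 .L .L)) (.C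
  552500 (.B 262500 .L .L) .L)))) (.B 150000 (.C 821000 (.B 75000 (.B 37500 (.C 731500 (.B
  18750 (.B 1000 .S (.C 686750 (.B 9875 (.C 664375 .L .L) .L) (.B 9875 (.B 5437 .L .L) .L)))
  .L) (.B 18750 (.B 1000 (.C 820000 .S .L) (.C 776250 (.B 9875 .L .L) .L)) .L)) (.C 731500 .L
  .L)) (.B 112500 (.B 93750 .L .L) .L)) (.B 75000 (.B 37500 (.C 910500 (.B 18750 (.C 865750 (.B
  9375 (.B 4687 .L .L) .L) (.B 9375 .L .L)) .L) (.C 955250 (.B 18750 .L .L) (.C 977625 .L (.B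
  18750 (.C 988812 .L (.B 7000 .L .L)) .L)))) (.B 56250 .L .L)) .L)) (.C 821000 (.B 225000 .L
  .L) .L)))

theorem run2 : chk tr2 0 300000 284000 1000000 284000 300000 = true := by
  decide +kernel

end Vale.Agent.P232.NB1
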