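import Vale.Agent.P232.NB1Def

/-!
# P232, module 2NB, outside the T-box: runs of the certified search
-/

namespace Vale.Agent.P232.NB1

/-- search tree -/
def tr3 : Tr :=
  (.C 650000 (.B 159200 (.C 475000 (.C 387500 (.B 79600 .L .L) (.B 79600 (.B 39800 (.B 19900 .L
  .L) (.B 59700 .L .L)) (.C 431250 (.B 119400 .L .L) (.B 119400 .L (.C 453125 .L .L))))) (.B
  79600 (.B 39800 (.C 562500 (.B 19900 (.B 1000 (.C 550000 (.C 512500 .L .L) .S) (.C 518750 .L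
  .L)) (.C 518750 .L .L)) (.B 19900 (.B 1000 .S (.C 606250 (.B 10450 (.B 5725 .L .L) .L) (.B
  10450 (.C 628125 .L .L) .L))) (.C 606250 .L .L))) (.C 562500 (.C 518750 .L (.B 59700 .L .L))
  (.C 606250 (.B 59700 .L .L) (.B 59700 .L .L)))) (.C 562500 (.B 119400 (.C 518750 (.B 99500 .L
  .L) (.B 99500 .L (.B 109450 .L .L))) (.C 518750 (.C 496875 (.B 139300 .L .L) (.B 139300 .L
  .L)) (.B 139300 (.C 540625 .L .L) (.C 540625 .L .L)))) (.B 119400 (.C 606250 (.B 99500 .L (.B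
  109450 .L .L)) (.B 99500 .L .L)) (.C 606250 (.B 139300 (.B 129350 .L .L) (.B 149250 .L .L))
  (.B 139300 .L .L)))))) (.C 475000 (.C 387500 (.B 238800 (.C 343750 .L .L) (.C 343750 .L (.B
  278600 .L .L))) (.B 238800 (.C 431250 (.B 199000 (.B 179100 .L .L) (.B 218900 .L .L)) (.B
  199000 (.C 453125 .L (.B 179100 .L .L)) (.B 218900 (.B 208950 .L .L) .L))) (.B 278600 (.C
  431250 .L (.B 258700 .L .L)) .L))) (.B 238800 (.C 562500 (.B 199000 (.C 518750 (.B 179100 (.C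
  496875 .L .L) (.C 496875 .L .L)) (.B 179100 (.C 540625 .L .L) (.B 189050 .L .L))) (.C 518750
  (.B 218900 (.B 208950 .L .L) .L) (.B 218900 .L .L))) (.B 199000 (.C 606250 (.B 179100 (.B
  169150 .L .L) .L) (.B 179100 .L .L)) (.C 606250 (.B 218900 .L .L) .L))) (.B 278600 (.C 562500
  (.C 518750 .L .L) .L) (.B 298500 .L .L))))) (.B 159200 (.C 825000 (.B 79600 (.B 39800 (.C
  737500 (.B 19900 (.B 1000 .S (.C 693750 (.B 10450 (.C 671875 (.B 5725 .L .L) (.B 5725 .L .L))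
  .L) (.B 10450 (.C 715625 .L .L) .L))) (.B 29850 .L .L)) (.B 19900 (.B 1000 (.C 820000 .S .L)
  (.C 781250 (.B 10450 (.B 5725 .L .L) .L) (.B 10450 .L .L))) .L)) (.C 737500 (.B 59700 .L .L)
  .L)) (.C 737500 (.B 119400 .L .L) .L)) (.B 79600 (.B 39800 (.C 912500 (.B 19900 (.B 9950 (.C
  868750 (.B 4975 (.C 846875 (.B 2487 (.C 835937 .L .L) .L) (.B 2487 .L .L)) .L) (.C 890625 (.B
  4975 .L .L) .L)) .L) .L) (.B 19900 (.C 956250 (.C 934375 (.B 9950 .L .L) (.B 9950 .L .L)) (.C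
  978125 (.B 9950 .L .L) (.C 989062 .L (.B 7000 (.C 993000 .L .S) .L)))) .L)) (.C 912500 .L
  .L)) (.B 119400 .L .L))) (.C 825000 (.B 238800 (.B 199000 .L .L) .L) .L)))

theorem run3 : chk tr3 0 318400 300000 1000000 300000 318400 = true := by
  decide +kernel

/-- search tree -/
def tr4 : Tr :=
  (.C 659150 (.B 161800 (.C 488725 (.C 403512 (.B 80900 .L (.C 360906 .L .L)) (.B 80900 (.B
  40450 (.B 20225 .L .L) (.C 446118 .L .L)) (.C 446118 (.B 121350 .L .L) (.B 121350 .L (.C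
  467421 .L (.B 141575 .L .L)))))) (.B 80900 (.B 40450 (.C 573937 (.B 20225 (.C 531331 .L (.B
  10112 (.B 1000 .L .L) .L)) (.C 531331 .L .L)) (.B 20225 (.B 10112 (.B 1000 .S (.C 616543 (.B
  5556 .L .L) (.C 637846 .L (.B 5556 .L .L)))) (.C 616543 .L .L)) (.C 616543 .L .L))) (.C
  573937 (.C 531331 .L (.B 60675 .L .L)) (.C 616543 (.B 60675 .L .L) (.B 60675 .L .L)))) (.C
  573937 (.B 121350 (.C 531331 (.C 510028 .L .L) (.B 101125 .L (.B 111237 .L .L))) (.C 531331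
  (.B 141575 (.C 510028 .L .L) (.C 510028 .L .L)) (.B 141575 (.C 552634 .L .L) (.C 552634 .L
  .L)))) (.B 121350 (.C 616543 (.B 101125 .L .L) (.B 101125 .L .L)) (.C 616543 (.B 141575 .L
  .L) (.B 141575 .L .L)))))) (.C 488725 (.B 242700 (.C 403512 (.C 360906 .L (.B 202250 .L .L))
  (.B 202250 (.C 446118 (.B 182025 .L .L) (.B 182025 (.C 467421 .L .L) (.C 467421 .L .L))) (.C
  446118 (.B 222475 .L .L) (.B 222475 (.B 212362 .L .L) .L)))) (.C 403512 (.C 360906 .L (.B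
  283150 .L .L)) (.B 283150 (.C 446118 .L .L) .L))) (.B 242700 (.C 573937 (.B 202250 (.C 531331
  (.B 182025 (.C 510028 .L .L) (.C 510028 .L .L)) (.B 182025 (.B 171912 .L .L) (.B 192137 .L
  .L))) (.C 531331 (.B 222475 (.B 212362 .L .L) .L) (.B 222475 .L .L))) (.B 202250 (.C 616543
  (.B 182025 .L .L) (.B 182025 .L .L)) (.B 222475 .L .L))) (.B 283150 (.C 573937 (.B 262925 .L
  .L) .L) (.B 303375 .L .L))))) (.B 161800 (.B 80900 (.C 829575 (.B 40450 (.C 744362 (.B 20225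
  (.B 10112 (.B 1000 .S (.C 701756 (.C 680453 (.B 5556 .L .L) (.B 5556 .L .L)) (.C 723059 .L
  .L))) (.C 701756 .L .L)) (.B 30337 .L .L)) (.B 20225 (.B 10112 (.B 1000 (.C 820000 .S .L) (.C
  786968 (.B 5556 .L .L) .L)) .L) .L)) (.C 744362 (.B 60675 .L .L) .L)) (.B 40450 (.C 914787
  (.B 20225 (.B 10112 (.C 872181 (.B 5056 (.C 850878 (.B 2528 (.B 1264 .L .L) .L) (.B 2528 .L
  .L)) .L) (.C 893484 (.B 5056 .L .L) .L)) .L) .L) (.B 20225 (.C 957393 (.C 936090 (.B 10112 .L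
  .L) (.B 10112 .L .L)) (.C 978696 (.B 10112 .L .L) (.C 989348 .L (.B 10112 (.B 7000 (.C 993000
  .L .S) .L) .L)))) .L)) (.C 914787 .L .L))) (.C 829575 (.B 121350 (.C 744362 .L .L) .L) .L))
  (.C 829575 (.B 242700 .L .L) .L)))

theorem run4 : chk tr4 0 323600 318300 1000000 318300 323600 = true := by
  decide +kernel

end Vale.Agent.P232.NB1
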