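import Vale.Agent.P232.TreeDef

/-!
# P232, module 2NB, the T-box: certified search in `(b, c, V, T)` (definitions)

Positions and values are in units of `10⁻⁶`.  `e` stands for `1 - T'`, `q` for `T + 0.0693`.
The second line has the values `la` at `b1` and `mu` at `c2`, the first one lies `u` above it.
The tree of the search is given explicitly.
-/

namespace Vale.Agent.P232.NB2

open Vale.Agent.P232.N5 (M)

/-- forces the evaluation of `n` -/
def fc {β : Type} (n : ℕ) (f : ℕ → β) : β :=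
  match n with
  | 0 => f 0
  | m + 1 => f (m + 1)

/-- minimum -/
def mn (a b : ℕ) : ℕ := bif Nat.ble a b then a else b

/-- maximum -/
def mx (a b : ℕ) : ℕ := bif Nat.ble a b then b else a

/-- Newton iteration for the square root (nothing is proved about it) -/
def nw (n : ℕ) : ℕ → ℕ → ℕ
  | 0, x => x
  | k + 1, x => fc ((x + n / x) / 2) fun y => bif Nat.blt y x then nw n k y else x

/-- square root -/
def isq (n : ℕ) : ℕ := fc n fun n => fc (Nat.pow 2 (Nat.log2 n / 2 + 1)) fun x => nw n 40 x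

/-- `X` is in the affine regime of `KT` -/
def af (e X : ℕ) : Bool := Nat.ble (31416 * e * e) (40000000000 * (M - X))

/-- lower bound of `KT` in the affine regime -/
def kl (e X : ℕ) : ℕ := ((M - X) * 40000000000 + 31415 * e * e) / (40000 * e)

/-- proposal for the lower bound of `KT` -/
def k1 (e X : ℕ) : ℕ := bif af e X then kl e X else isq (31415 * (M - X) * 100)

/-- `10⁸` times the square of the third function -/
def w3 (q X : ℕ) : ℕ := 100000000 + 82 * (X - q)

/-- proposal for the lower bound of `FB` -/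
def k2 (q X : ℕ) : ℕ :=
  mn (mn (isq (31415 * X * 100)) (isq (31415 * (M - X) * 100))) (isq (w3 q X * 10000))

/-- the inequalities at a node; `n / (10⁶ d)` and `(n + u d) / (10⁶ d)` are the two lines,
`s = (M² - r²) d²` -/
def ndC (q e X n n1 s : ℕ) : Bool :=
  Nat.ble (n * n * 100000000) (s * w3 q X) &&
  (Nat.ble (10000000000 * (n * n)) (31415 * X * s) &&
  (Nat.ble (10000000000 * (n * n)) (31415 * (M - X) * s) &&
  (bif af e X then Nat.ble (n1 * n1 * 1000000000000) (s * (kl e X * kl e X))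
    else Nat.ble (10000000000 * (n1 * n1)) (31415 * (M - X) * s))))

/-- `r` is admissible at `X` for both lines -/
def ndOK (q e b1 c2 la mu u X r : ℕ) : Bool :=
  Nat.ble b1 X && (Nat.ble X c2 && (Nat.ble r M &&
  (fc (la * (c2 - X) + mu * (X - b1)) fun n =>
    fc ((M * M - r * r) * ((c2 - b1) * (c2 - b1))) fun s =>
      ndC q e X n (n + u * (c2 - b1)) s)))

/-- the largest of the squared quotients, in units `10⁻¹²` -/
def rat (q e X n n1 d2 : ℕ) : ℕ :=
  mx (mx (10000000000 * (n * n) / (31415 * mn X (M - X) * d2)) (n * n * 100000000 / (w3 q X * d2)))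
    (bif af e X then n1 * n1 * 1000000000000 / (kl e X * kl e X * d2)
      else 10000000000 * (n1 * n1) / (31415 * (M - X) * d2))

/-- proposal for `r` -/
def rn (q e b1 c2 la mu u X : ℕ) : ℕ :=
  fc (la * (c2 - X) + mu * (X - b1)) fun n =>
    isq (M * M - (rat q e X n (n + u * (c2 - b1)) ((c2 - b1) * (c2 - b1)) + 1))

/-- nodes: `g = 0` uniform, otherwise graded towards the right end -/
def nd (g n lo hi j : ℕ) : ℕ :=
  bif Nat.beq g 0 then lo + (hi - lo) * j / n else lo + (hi - lo) * (2 * n * j - j * j) / (n * n)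

/-- trapezoidal sum -/
def go (q e b1 c2 la mu u g n lo hi : ℕ) : ℕ → ℕ → ℕ → ℕ → ℕ
  | 0, _, _, acc => acc
  | j + 1, X, r, acc =>
    fc (nd g n lo hi (n - j)) fun Y => fc (rn q e b1 c2 la mu u Y) fun s =>
      bif ndOK q e b1 c2 la mu u Y s && (Nat.ble X Y && Nat.ble Y hi) then
        fc (acc + (Y - X) * (r + s)) fun acc' => go q e b1 c2 la mu u g n lo hi j Y s acc'
      else 0

/-- trapezoidal sum on `[lo, hi]` with `n` intervals -/
def sg (q e b1 c2 la mu u g n lo hi : ℕ) : ℕ :=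
  fc (rn q e b1 c2 la mu u lo) fun r =>
    bif ndOK q e b1 c2 la mu u lo r && Nat.ble lo hi then
      go q e b1 c2 la mu u g n lo hi n lo r 0 else 0

/-- lower bound of `2 M N cal2` -/
def tt (q e b1 c2 la mu u b2 c1 : ℕ) : ℕ :=
  bif Nat.blt b2 c1 then
    (bif Nat.ble c1 q then sg q e b1 c2 la mu u 1 24 b2 c1
    else bif Nat.ble b2 q then
      sg q e b1 c2 la mu u 0 12 b2 q + sg q e b1 c2 la mu u 1 12 q c1 else 0)
  else 0

/-- leaf with given lines; the slack is `2000000 / (2 * 10^12) = 10^(-6)` -/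
def lf1 (q e b1 b2 c1 c2 V1 V2 la mu u : ℕ) : Bool :=
  Nat.blt b1 c2 && (Nat.ble c2 M && (Nat.ble la mu && (Nat.ble b1 V1 && (Nat.ble V1 V2 &&
  (Nat.ble V2 c2 &&
  (ndOK q e b1 c2 la mu u b1 0 && (ndOK q e b1 c2 la mu u c2 0 &&
  ((Nat.ble c2 q || ndOK q e b1 c2 la mu u q 0) &&
  (fc (tt q e b1 c2 la mu u b2 c1 + 260000 * u) fun T =>
    Nat.ble 2000000 T && (fc (T - 2000000) fun T' =>
    N5.leafT 2 b1 b2 c1 c2 V1 V2 la mu T' || N5.leafT 0 b1 b2 c1 c2 V1 V2 la mu T'))))))))))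

/-- leaf -/
def leaf (b1 b2 c1 c2 V1 V2 T1 T2 : ℕ) : Bool :=
  fc (M - mn 900000 (T1 - 2000)) fun e =>
  fc (T2 + 69300) fun q =>
  fc (isq (31415 * b1 * 100)) fun la =>
  fc (k2 q c2) fun mu =>
  fc (mn (k1 e b1 - la) (k1 e c2 - mu)) fun u =>
    lf1 q e b1 b2 c1 c2 V1 V2 la mu u

/-- search trees; the letter gives the variable whose interval is halved -/
inductive Tr
  | L
  | B (l r : Tr)
  | C (l r : Tr)
  | V (l r : Tr)
  | T (l r : Tr)

/-- the check of a search tree -/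
def chk : Tr → ℕ → ℕ → ℕ → ℕ → ℕ → ℕ → ℕ → ℕ → Bool
  | .L, b1, b2, c1, c2, V1, V2, T1, T2 => leaf b1 b2 c1 c2 V1 V2 T1 T2
  | .B l r, b1, b2, c1, c2, V1, V2, T1, T2 =>
    fc ((b1 + b2) / 2) fun m => chk l b1 m c1 c2 V1 V2 T1 T2 && chk r m b2 c1 c2 V1 V2 T1 T2
  | .C l r, b1, b2, c1, c2, V1, V2, T1, T2 =>
    fc ((c1 + c2) / 2) fun m => chk l b1 b2 c1 m V1 V2 T1 T2 && chk r b1 b2 m c2 V1 V2 T1 T2
  | .V l r, b1, b2, c1, c2, V1, V2, T1, T2 =>
    fc ((V1 + V2) / 2) fun m => chk l b1 b2 c1 c2 V1 m T1 T2 && chk r b1 b2 c1 c2 m V2 T1 T2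
  | .T l r, b1, b2, c1, c2, V1, V2, T1, T2 =>
    fc ((T1 + T2) / 2) fun m => chk l b1 b2 c1 c2 V1 V2 T1 m && chk r b1 b2 c1 c2 V1 V2 m T2

end Vale.Agent.P232.NB2
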