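import Vale.Agent.P232.NumB2Def

/-!
# P232: certified search in `(b, c, V)` for two concave profiles (definitions)

`wm1 X / 10^10` and `wm2 X / 10^10` are lower bounds of the squares of the two profiles at
`X / 10^6`.  The second line has the values `la` at `b1` and `mu` at `c2`; the first one is
obtained by adding `u - d`.  The tree of the search is given explicitly.
-/

namespace Vale.Agent.P232.NT

open Vale.Agent.P232.N5 (M)
open Vale.Agent.P232.NB2 (fc mn mx isq)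

/-- `r` is admissible at `X` for both lines -/
def ndOK (wm1 wm2 : ℕ → ℕ) (b1 c2 la mu u d X r : ℕ) : Bool :=
  Nat.ble b1 X && (Nat.ble X c2 && (Nat.ble r M &&
  (fc (la * (c2 - X) + mu * (X - b1)) fun n =>
    fc ((M * M - r * r) * ((c2 - b1) * (c2 - b1))) fun s =>
      fc (n + u * (c2 - b1) - d * (c2 - b1)) fun n1 =>
        Nat.ble (10000000000 * (n * n)) (wm2 X * s) &&
          Nat.ble (10000000000 * (n1 * n1)) (wm1 X * s))))

/-- proposal for `r` -/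
def rn (wm1 wm2 : ℕ → ℕ) (b1 c2 la mu u d X : ℕ) : ℕ :=
  fc (la * (c2 - X) + mu * (X - b1)) fun n =>
    fc (n + u * (c2 - b1) - d * (c2 - b1)) fun n1 =>
      isq (M * M - (mx (10000000000 * (n * n) / (wm2 X * ((c2 - b1) * (c2 - b1))))
        (10000000000 * (n1 * n1) / (wm1 X * ((c2 - b1) * (c2 - b1)))) + 1))

/-- nodes, graded towards both ends -/
def nd (n lo hi j : ℕ) : ℕ := lo + (hi - lo) * (3 * n * j * j - 2 * j * j * j) / (n * n * n)

/-- trapezoidal sum -/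
def go (wm1 wm2 : ℕ → ℕ) (b1 c2 la mu u d n lo hi : ℕ) : ℕ → ℕ → ℕ → ℕ → ℕ
  | 0, _, _, acc => acc
  | j + 1, X, r, acc =>
    fc (nd n lo hi (n - j)) fun Y => fc (rn wm1 wm2 b1 c2 la mu u d Y) fun s =>
      bif ndOK wm1 wm2 b1 c2 la mu u d Y s && (Nat.ble X Y && Nat.ble Y hi) then
        fc (acc + (Y - X) * (r + s)) fun acc' => go wm1 wm2 b1 c2 la mu u d n lo hi j Y s acc'
      else 0

/-- lower bound of `2 M N cal2` -/
def tt (wm1 wm2 : ℕ → ℕ) (n b1 c2 la mu u d b2 c1 : ℕ) : ℕ :=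
  bif Nat.blt b2 c1 then
    fc (rn wm1 wm2 b1 c2 la mu u d b2) fun r =>
      bif ndOK wm1 wm2 b1 c2 la mu u d b2 r then
        go wm1 wm2 b1 c2 la mu u d n b2 c1 n b2 r 0 else 0
  else 0

/-- leaf with given lines; the slack is `2000000 / (2 * 10^12) = 10^(-6)` -/
def lf (wm1 wm2 : ℕ → ℕ) (n b1 b2 c1 c2 V1 V2 la mu u d : ℕ) : Bool :=
  Nat.blt b1 c2 && (Nat.ble c2 M &&
  (ndOK wm1 wm2 b1 c2 la mu u d b1 0 && (ndOK wm1 wm2 b1 c2 la mu u d c2 0 &&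
  (fc (mx V1 b1) fun Va => fc (mn V2 c2) fun Vb =>
    Nat.blt Vb Va ||
    (fc (tt wm1 wm2 n b1 c2 la mu u d b2 c1 + 260000 * u) fun T =>
      Nat.ble (260000 * d + 2000000) T &&
      (fc (T - (260000 * d + 2000000)) fun T' =>
        N5.leafT 2 b1 b2 c1 c2 Va Vb la mu T' || N5.leafT 0 b1 b2 c1 c2 Va Vb la mu T'))))))

/-- search trees; the letter gives the variable whose interval is halved -/
inductive Tr
  | L (k : ℕ)
  | S
  | B (l r : Tr)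
  | C (l r : Tr)
  | V (l r : Tr)

/-- the check of a search tree -/
def chk (lf : ℕ → ℕ → ℕ → ℕ → ℕ → ℕ → ℕ → Bool) (sk : ℕ → ℕ → ℕ → ℕ → ℕ → ℕ → Bool) :
    Tr → ℕ → ℕ → ℕ → ℕ → ℕ → ℕ → Bool
  | .L k, b1, b2, c1, c2, V1, V2 => lf k b1 b2 c1 c2 V1 V2
  | .S, b1, b2, c1, c2, V1, V2 => Nat.blt c2 V1 || (Nat.blt V2 b1 || sk b1 b2 c1 c2 V1 V2)
  | .B l r, b1, b2, c1, c2, V1, V2 =>
    fc ((b1 + b2) / 2) fun m => chk lf sk l b1 m c1 c2 V1 V2 && chk lf sk r m b2 c1 c2 V1 V2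
  | .C l r, b1, b2, c1, c2, V1, V2 =>
    fc ((c1 + c2) / 2) fun m => chk lf sk l b1 b2 c1 m V1 V2 && chk lf sk r b1 b2 m c2 V1 V2
  | .V l r, b1, b2, c1, c2, V1, V2 =>
    fc ((V1 + V2) / 2) fun m => chk lf sk l b1 b2 c1 c2 V1 m && chk lf sk r b1 b2 c1 c2 m V2

/-- `10^10` times a lower bound of `I2 ^ 2` -/
def wI (X : ℕ) : ℕ := mn (mn (31415 * X) (31415 * (M - X))) 10000000000

/-- `10^10` times a lower bound of `FA ^ 2` -/
def wA (X : ℕ) : ℕ := mn (31415 * X) 11664000000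

/-- `10^10` times a lower bound of `KC ^ 2` -/
def wC (X : ℕ) : ℕ := 31415 * (M - X)

/-- square root of a value of these functions, in units `10⁻⁶` -/
def rt (w : ℕ) : ℕ := isq (w * 100)

/-- leaf for `num_C`; `k = 0, 1, 2` -/
def lfC (k b1 b2 c1 c2 V1 V2 : ℕ) : Bool :=
  fc (rt (wI b1)) fun la => fc (rt (wI c2)) fun m0 => fc (rt (wA c2)) fun m1 =>
    fc (m0 + (m1 - m0) * k / 2) fun mu =>
      lf wI wA 12 b1 b2 c1 c2 V1 V2 la mu 0 (mu - m0)

/-- skip for `num_C` -/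
def skC (_b1 b2 c1 _c2 V1 _V2 : ℕ) : Bool :=
  Nat.ble 300000 V1 && (Nat.ble b2 7000 && Nat.ble 993000 c1)

/-- leaf for `num_B`; `k = 0, 1` -/
def lfB (k b1 b2 c1 c2 V1 V2 : ℕ) : Bool :=
  fc (rt (wI b1)) fun la => fc (rt (wI c2)) fun mu =>
    fc (mn (rt (wC b1) - la) (rt (wC c2) - mu) * k) fun u =>
      lf wC wI 16 b1 b2 c1 c2 V1 V2 la mu u 0

/-- skip for `num_B` -/
def skB (_b1 b2 c1 c2 V1 V2 : ℕ) : Bool :=
  (Nat.ble b2 1000 && (Nat.ble 550000 c1 && (Nat.ble c2 820000 &&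
    (Nat.ble 284000 V1 && Nat.ble V2 323600)))) ||
  (Nat.ble 300000 V1 && (Nat.ble b2 7000 && Nat.ble 993000 c1))

end Vale.Agent.P232.NT
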