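import Vale.Agent.P232.NumTDef

/-!
# P232: runs of the certified search for `num_C`
-/

namespace Vale.Agent.P232.NT

/-- search tree -/
def trC_a : Tr :=
  (.C (.C (.C (.B (.L 2) (.C (.L 0) (.L 2))) (.B (.B (.C (.L 2) (.C (.L 2) (.L 2))) (.C (.L 2)
  (.L 2))) (.C (.B (.L 2) (.L 2)) (.C (.L 2) (.B (.L 2) (.L 2)))))) (.B (.B (.C (.B (.C (.C (.L
  2) (.L 2)) (.B (.C (.L 2) (.L 2)) (.L 2))) (.C (.L 2) (.L 2))) (.B (.B (.C (.C (.C (.L 2) (.L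
  2)) (.C (.L 2) (.L 2))) (.C (.C (.L 2) (.L 2)) (.L 2))) (.L 2)) (.L 2))) (.C (.C (.L 2) (.L
  2)) (.C (.L 2) (.L 2)))) (.C (.C (.B (.L 2) (.C (.L 2) (.L 2))) (.B (.L 2) (.C (.L 2) (.L
  2)))) (.B (.L 2) (.L 2))))) (.C (.B (.B (.C (.B (.C (.B (.C (.L 2) (.L 2)) (.L 2)) (.B (.C (.L
  2) (.L 1)) (.L 1))) (.L 2)) (.B (.C (.C (.L 1) (.L 1)) (.L 1)) (.L 1))) (.C (.L 1) (.L 1)))
  (.C (.L 1) (.L 1))) (.B (.B (.C (.C (.C (.L 1) (.L 1)) (.L 1)) (.C (.L 1) (.L 1))) (.L 1)) (.L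
  1))))

theorem runC_a : chk lfC skC trC_a 0 130000 263000 1000000 263000 300000 = true := by
  decide +kernel

/-- search tree -/
def trC_b : Tr :=
  (.C (.C (.C (.L 2) (.B (.B (.C (.L 2) (.L 2)) (.C (.L 2) (.L 2))) (.C (.L 2) (.C (.L 2) (.B
  (.L 2) (.L 2)))))) (.B (.C (.B (.C (.C (.L 2) (.L 2)) (.B (.C (.L 2) (.L 2)) (.L 2))) (.C (.L
  2) (.L 2))) (.B (.B (.C (.B (.C (.L 2) (.L 2)) (.L 2)) (.B (.C (.L 2) (.L 2)) (.L 2))) (.L 2))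
  (.C (.L 2) (.L 2)))) (.C (.C (.B (.C (.L 2) (.L 2)) (.C (.C (.L 2) (.L 2)) (.C (.B (.L 2) (.L
  2)) (.B (.L 2) (.C (.L 2) (.L 2)))))) (.B (.C (.L 2) (.L 2)) (.C (.B (.L 2) (.C (.C (.L 2) (.L
  2)) (.L 2))) (.B (.L 2) (.L 2))))) (.B (.C (.L 2) (.L 2)) (.C (.B (.L 2) (.L 2)) (.L 2))))))
  (.C (.B (.B (.C (.B (.C (.B (.C (.L 2) (.L 2)) (.L 2)) (.B (.C (.L 2) (.L 1)) (.L 1))) (.L 2))
  (.B (.C (.B (.C (.L 1) (.L 1)) (.L 1)) (.B (.L 1) (.L 1))) (.L 1))) (.C (.L 2) (.L 1))) (.C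
  (.C (.L 2) (.L 1)) (.L 1))) (.B (.B (.C (.C (.B (.L 1) (.L 1)) (.C (.L 1) (.L 1))) (.C (.L 1)
  (.C (.L 1) (.L 1)))) (.C (.L 1) (.L 1))) (.C (.L 1) (.L 1)))))

theorem runC_b : chk lfC skC trC_b 0 130000 263000 1000000 300000 318400 = true := by
  decide +kernel

/-- search tree -/
def trC_c : Tr :=
  (.C (.C (.C (.L 2) (.B (.C (.L 2) (.L 2)) (.C (.L 2) (.C (.L 2) (.B (.L 2) (.L 2)))))) (.B (.C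
  (.B (.C (.L 2) (.B (.L 2) (.L 2))) (.C (.L 2) (.L 2))) (.B (.B (.C (.C (.L 2) (.L 2)) (.B (.C
  (.L 2) (.L 2)) (.L 2))) (.L 2)) (.C (.L 2) (.L 2)))) (.C (.C (.B (.C (.L 2) (.L 2)) (.C (.C
  (.L 2) (.L 2)) (.C (.B (.L 2) (.L 2)) (.B (.L 2) (.C (.L 2) (.L 2)))))) (.B (.C (.L 2) (.L 2))
  (.C (.B (.L 2) (.C (.C (.L 2) (.L 2)) (.L 2))) (.B (.L 2) (.L 2))))) (.B (.C (.L 2) (.L 2))
  (.C (.B (.L 2) (.L 2)) (.L 2)))))) (.C (.B (.B (.C (.B (.C (.B (.C (.L 2) (.L 2)) (.L 2)) (.B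
  (.C (.L 2) (.L 1)) (.L 1))) (.L 2)) (.B (.C (.B (.C (.L 1) (.L 1)) (.L 1)) (.B (.L 1) (.L 1)))
  (.L 1))) (.C (.L 2) (.L 1))) (.C (.C (.L 2) (.L 1)) (.L 1))) (.B (.B (.C (.C (.B (.L 1) (.L
  1)) (.C (.L 1) (.L 1))) (.C (.L 1) (.C (.L 1) (.L 1)))) (.C (.L 1) (.L 1))) (.C (.L 1) (.L
  1)))))

theorem runC_c : chk lfC skC trC_c 0 130000 263000 1000000 318300 361000 = true := by
  decide +kernel

end Vale.Agent.P232.NT
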