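import Mathlib

/-!
# P232, module N5: the certified search (definitions)

All numbers are natural numbers; positions are in units of `1/N`, values in units of `1/M`,
`N = M = 10^6`.
-/

namespace Vale.Agent.P232.N5

/-- unit `10^6` -/
def M : ℕ := 1000000

/-- Newton iteration for the square root (nothing is proved about it) -/
def newt (n : ℕ) : ℕ → ℕ → ℕ
  | 0, x => x
  | k + 1, x => bif Nat.blt ((x + n / x) / 2) x then newt n k ((x + n / x) / 2) else x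

def isq (n : ℕ) : ℕ := newt n 40 (2 ^ (Nat.log2 n / 2 + 1))

/-- lower bound of `I2` -/
def i2 (x : ℕ) : ℕ :=
  min (isq (31415 * x * 100)) (min M (isq (31415 * (M - x) * 100)))

/-- `r` is admissible at `X` for the line with values `la` at `b1`, `mu` at `c2` -/
def nodeOK (b1 c2 la mu X r : ℕ) : Bool :=
  Nat.ble b1 X && Nat.ble X c2 && Nat.ble c2 M && Nat.ble r M &&
  Nat.ble ((la * (c2 - X) + mu * (X - b1)) ^ 2) ((M ^ 2 - r ^ 2) * (c2 - b1) ^ 2) &&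
  Nat.ble (10 ^ 10 * (la * (c2 - X) + mu * (X - b1)) ^ 2)
    (31415 * X * (M ^ 2 - r ^ 2) * (c2 - b1) ^ 2) &&
  Nat.ble (10 ^ 10 * (la * (c2 - X) + mu * (X - b1)) ^ 2)
    (31415 * (M - X) * (M ^ 2 - r ^ 2) * (c2 - b1) ^ 2)

/-- proposal for `r` -/
def rnode (b1 c2 la mu X : ℕ) : ℕ :=
  isq (M ^ 2 - (max (10 ^ 10 * (la * (c2 - X) + mu * (X - b1)) ^ 2 /
        (31415 * min X (M - X) * (c2 - b1) ^ 2))
      ((la * (c2 - X) + mu * (X - b1)) ^ 2 / (c2 - b1) ^ 2) + 1))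

/-- nodes, graded towards both ends (`16` intervals) -/
def nd (lo hi j : ℕ) : ℕ := lo + (hi - lo) * (48 * j * j - 2 * j * j * j) / 4096

/-- trapezoidal sum -/
def go (b1 c2 la mu lo hi : ℕ) : ℕ → ℕ → ℕ → ℕ → ℕ
  | 0, _, _, acc => acc
  | j + 1, X, r, acc =>
    bif nodeOK b1 c2 la mu (nd lo hi (16 - j)) (rnode b1 c2 la mu (nd lo hi (16 - j))) &&
      Nat.ble X (nd lo hi (16 - j)) && Nat.ble (nd lo hi (16 - j)) hi then
      go b1 c2 la mu lo hi j (nd lo hi (16 - j)) (rnode b1 c2 la mu (nd lo hi (16 - j)))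
        (acc + (nd lo hi (16 - j) - X) * (r + rnode b1 c2 la mu (nd lo hi (16 - j))))
    else 0

/-- lower bound of `2 M N cal` -/
def tt (b1 b2 c1 c2 la mu : ℕ) : ℕ :=
  bif Nat.blt b2 c1 && nodeOK b1 c2 la mu b2 (rnode b1 c2 la mu b2) then
    go b1 c2 la mu b2 c1 16 b2 (rnode b1 c2 la mu b2) 0
  else 0

/-- final test at `V`, `E = 2 N L(V) + D T` -/
def ev (b1 c2 la mu T V : ℕ) : ℕ :=
  2 * M * (la * (c2 - V) + mu * (V - b1)) + (c2 - b1) * T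

/-- slab test -/
def test2 (b1 c2 la mu T Va Vb : ℕ) : Bool :=
  Nat.ble (2 * M * M * (c2 - b1)) (ev b1 c2 la mu T Va) &&
  Nat.ble (2 * M * M * (c2 - b1)) (ev b1 c2 la mu T Vb)

/-- tube test -/
def test0 (b1 c2 la mu T Va Vb t : ℕ) : Bool :=
  Nat.ble 1 t &&
  Nat.ble ((c2 - b1) * (31416 * Va * M ^ 2 + t ^ 2 * M * 10000))
    (ev b1 c2 la mu T Va * 10000 * t) &&
  Nat.ble ((c2 - b1) * (31416 * Vb * M ^ 2 + t ^ 2 * M * 10000))
    (ev b1 c2 la mu T Vb * 10000 * t)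

/-- ball test -/
def test1 (b1 c2 la mu T Va Vb t : ℕ) : Bool :=
  Nat.ble 1 t &&
  Nat.ble ((c2 - b1) * (4836 * M ^ 3 * 2 * Va + 4836 * M * t ^ 3))
    (ev b1 c2 la mu T Va * 3000 * t * M) &&
  Nat.ble ((c2 - b1) * (4836 * M ^ 3 * 2 * Vb + 4836 * M * t ^ 3))
    (ev b1 c2 la mu T Vb * 3000 * t * M)

/-- tangency point for the tube test -/
def t0 (b1 c2 la mu Va Vb : ℕ) : ℕ :=
  bif Nat.blt la mu then
    max (isq (31416 * Va * 100))
      (min (isq (31416 * Vb * 100)) (31416 * M * (c2 - b1) / (20000 * (mu - la))))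
  else isq (31416 * Vb * 100)

/-- cube root of `V` near `0.14` -/
def cb (V : ℕ) : ℕ :=
  (2 * (519250 + V * 5 / 4 - 175000) + V * M ^ 2 / (519250 + V * 5 / 4 - 175000) ^ 2) / 3

/-- tangency point for the ball test -/
def t1 (b1 c2 la mu Va Vb : ℕ) : ℕ :=
  bif Nat.blt la mu then
    max (cb Va) (min (cb Vb) (4836 * M * (c2 - b1) / (3000 * (mu - la))))
  else cb Vb

/-- the leaf test; `mode = 0` tube, `1` tube or ball, `2` slab -/
def leafT (mode b1 b2 c1 c2 Va Vb la mu T : ℕ) : Bool :=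
  bif Nat.beq mode 2 then test2 b1 c2 la mu T Va Vb
  else test0 b1 c2 la mu T Va Vb (t0 b1 c2 la mu Va Vb) ||
    (Nat.beq mode 1 && test1 b1 c2 la mu T Va Vb (t1 b1 c2 la mu Va Vb))

def leaf (mode b1 b2 c1 c2 V1 V2 : ℕ) : Bool :=
  nodeOK b1 c2 (i2 b1) (i2 c2) b1 0 && nodeOK b1 c2 (i2 b1) (i2 c2) c2 0 &&
  Nat.blt b1 c2 &&
  (Nat.blt (min V2 c2) (max V1 b1) ||
    leafT mode b1 b2 c1 c2 (max V1 b1) (min V2 c2) (i2 b1) (i2 c2)
      (tt b1 b2 c1 c2 (i2 b1) (i2 c2)))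

/-- skip regions -/
def skip (mode b1 b2 c1 c2 : ℕ) : Bool :=
  bif Nat.beq mode 2 then
    Nat.ble 307000 b1 || (Nat.ble b2 11500 && Nat.ble 988500 c1) ||
      (Nat.ble 690000 c1 && Nat.blt (M - c1) b1)
  else Nat.ble (66 * c2) (100 * b1) && Nat.ble c2 318300

def search (mode V1 V2 : ℕ) : ℕ → ℕ → ℕ → ℕ → ℕ → Bool
  | 0, b1, b2, c1, c2 =>
    Nat.blt c2 V1 || Nat.blt V2 b1 || Nat.ble c2 b1 || skip mode b1 b2 c1 c2 ||
      leaf mode b1 b2 c1 c2 V1 V2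
  | k + 1, b1, b2, c1, c2 =>
    Nat.blt c2 V1 || Nat.blt V2 b1 || Nat.ble c2 b1 || skip mode b1 b2 c1 c2 ||
      leaf mode b1 b2 c1 c2 V1 V2 ||
      (bif Nat.ble ((c2 - c1) * max (rnode b1 c2 (i2 b1) (i2 c2) c1) 250000)
          ((b2 - b1) * max (rnode b1 c2 (i2 b1) (i2 c2) b2) 250000) then
        search mode V1 V2 k b1 ((b1 + b2) / 2) c1 c2 &&
          search mode V1 V2 k ((b1 + b2) / 2) b2 c1 c2
      else
        search mode V1 V2 k b1 b2 c1 ((c1 + c2) / 2) &&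
          search mode V1 V2 k b1 b2 ((c1 + c2) / 2) c2)

end Vale.Agent.P232.N5
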