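import Vale.Agent.P232.Window

/-!
# P232, strict classification, K17 / CWIN: the window with control of the `L^1` distance (helper57)
-/

open MeasureTheory Set

namespace Vale.Agent.P232

open WS in
/-- K17 : choice of a good window of levels, with the `L^1` distance -/
theorem window_l1 {ε : ℝ} (hε : 0 < ε) : ∃ δ > 0, ∀ u : (Fin 3 → ℝ) → ℝ, SymN u → hTV u ≤ 2 →
    ∫ x in cell 3, u x * (1 - u x) ≤ δ → ∃ w : (Fin 3 → ℝ) → ℝ, SymN w ∧
      |(∫ x in cell 3, w x) - ∫ x in cell 3, u x| ≤ ε ∧ ∫ x in cell 3, w x * (1 - w x) ≤ ε ∧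
      hTV w ≤ hTV u + ε ∧ ∫ x in cell 3, |w x - u x| ≤ ε ∧
      (∀ j k, j ≠ k → w (pt j k 0.065) = 0 ∨ w (pt j k 0.065) = 1) ∧
      (∀ i j k, i ≠ j → j ≠ k → i ≠ k → ∃ τ, 0 ≤ τ ∧ τ ≤ 1 / 2 ∧ Trace w i j k τ ε) := by
  classical
  -- reduction to `ε ≤ 1`
  wlog hε1 : ε ≤ 1 generalizing ε
  · obtain ⟨δ, hδ, H⟩ := this one_pos le_rfl
    push Not at hε1
    refine ⟨δ, hδ, fun u hu h2 h3 => ?_⟩
    obtain ⟨w, hw, a1, a2, a3, a6, a4, a5⟩ := H u hu h2 h3
    refine ⟨w, hw, a1.trans hε1.le, a2.trans hε1.le, by linarith, a6.trans hε1.le, a4,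
      fun i j k h1 h2 h3 => ?_⟩
    obtain ⟨τ, b1, b2, b3, b4⟩ := a5 i j k h1 h2 h3
    exact ⟨τ, b1, b2, fun t z c1 c2 c3 => b3 t z c1 (by linarith) c3, b4⟩
  obtain ⟨N, hN⟩ := exists_nat_gt
    ((9 / ε) * (Fintype.card ((Fin 3 × Fin 3) ⊕ (Fin 3 × Fin 3 × Fin 3)) / ε + 2))
  have hN0 : (0 : ℝ) < N := lt_trans (by positivity) hN
  have hNn : 0 < N := by exact_mod_cast hN0
  refine ⟨ε / (2 * N), by positivity, fun u hu hTV2 hδ => ?_⟩
  have hH0 : 0 ≤ hTV u := mul_nonneg (by norm_num)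
    (integral_nonneg fun x => UpperPart.gradN_nonneg x)
  set G : (Fin 3 × Fin 3) ⊕ (Fin 3 × Fin 3 × Fin 3) → ℕ → ℝ := fun q m =>
    match q with
    | Sum.inl (j, k) => if (m : ℝ) / N < u (pt j k 0.065) then 1 else 0
    | Sum.inr (i, j, k) => TT u i j k ((m : ℝ) / N) with hG
  have hstep : ∀ m : ℕ, (m : ℝ) / N ≤ ((m + 1 : ℕ) : ℝ) / N := fun m =>
    div_le_div_of_nonneg_right (by push_cast; linarith) hN0.le
  have hGa : ∀ q m, G q (m + 1) ≤ G q m := by
    rintro (⟨j, k⟩ | ⟨i, j, k⟩) m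
    · show (if ((m + 1 : ℕ) : ℝ) / N < u (pt j k 0.065) then (1 : ℝ) else 0) ≤
        if (m : ℝ) / N < u (pt j k 0.065) then (1 : ℝ) else 0
      have := hstep m
      split_ifs with h1 h2 <;> first | norm_num | skip
      exact absurd (lt_of_le_of_lt this h1) h2
    · exact TT_anti (hstep m)
  have hG1 : ∀ q, G q 0 - G q N ≤ 1 := by
    rintro (⟨j, k⟩ | ⟨i, j, k⟩)
    · show (if ((0 : ℕ) : ℝ) / N < u (pt j k 0.065) then (1 : ℝ) else 0) -
        (if (N : ℝ) / N < u (pt j k 0.065) then (1 : ℝ) else 0) ≤ 1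
      split_ifs <;> norm_num
    · show TT u i j k _ - TT u i j k _ ≤ 1
      have h1 := TT_le (u := u) (i := i) (j := j) (k := k) (((0 : ℕ) : ℝ) / N)
      have h2 := TT_nonneg (u := u) (i := i) (j := j) (k := k) ((N : ℝ) / N)
      linarith
  obtain ⟨m, hm1, hm2, hm3, hm4⟩ := pick hε hε1 hN
    (D := fun m => DD u ((m : ℝ) / N) (((m : ℝ) + 1) / N)) (fun m => DD_nonneg _ _)
    hH0 hTV2 (DD_sum hu.toNice hNn) hGa hG1
  have hab : (m : ℝ) / N < ((m : ℝ) + 1) / N :=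
    div_lt_div_of_pos_right (by linarith) hN0
  obtain ⟨ψ, ψ', hψ1, hψd, hψm, hψa, hψb, hψ0, hψc, hψa', hψb'⟩ :=
    exists_step hab (show 0 < ε / 8 by positivity)
  have hp0 : ∀ s, 0 ≤ ψ s := fun s => by
    have h1 := hψm (min_le_left s ((m : ℝ) / N))
    rw [hψa _ (min_le_right _ _)] at h1
    exact h1
  have hp1 : ∀ s, ψ s ≤ 1 := fun s => by
    have h1 := hψm (le_max_left s (((m : ℝ) + 1) / N))
    rw [hψb _ (le_max_right _ _)] at h1
    exact h1
  have hw : SymN (fun x => ψ (u x)) := symN_comp hu hψ1 hψm hp0 hp1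
  have hcl := fun x : Fin 3 → ℝ => step_close hm1 hm2 hp0 hp1 hψa hψb (hu.nonneg x) (hu.le_one x)
  have huc : Continuous u := hu.smooth.continuous
  have hwc : Continuous (fun x => ψ (u x)) := hw.smooth.continuous
  have hI1 : IntegrableOn (fun x => 2 * N * (u x * (1 - u x))) (cell 3) :=
    UpperPart.cont_int (by fun_prop)
  have hI2 : ∫ x in cell 3, 2 * N * (u x * (1 - u x)) ≤ ε := by
    rw [integral_const_mul]
    calc 2 * (N : ℝ) * ∫ x in cell 3, u x * (1 - u x) ≤ 2 * N * (ε / (2 * N)) :=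
          mul_le_mul_of_nonneg_left hδ (by positivity)
      _ = ε := by field_simp
  have hL1 : ∫ x in cell 3, |ψ (u x) - u x| ≤ ε := by
    refine le_trans ?_ hI2
    exact setIntegral_mono_on (UpperPart.cont_int (hwc.sub huc).abs) hI1 UpperPart.cell_meas
      fun x _ => (hcl x).1
  refine ⟨fun x => ψ (u x), hw, ?_, ?_, ?_, hL1, ?_, ?_⟩
  · rw [← integral_sub (UpperPart.cont_int hwc) (UpperPart.cont_int huc)]
    exact abs_integral_le_integral_abs.trans hL1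
  · refine le_trans ?_ hI2
    exact setIntegral_mono_on (UpperPart.cont_int (hwc.mul (continuous_const.sub hwc))) hI1
      UpperPart.cell_meas fun x _ => (hcl x).2
  · have h1 := hTV_step hu.toNice hψ1 hψd hψ0 hψc hψa' hψb'
    have h2 : ((m : ℝ) + 1) / N - (m : ℝ) / N = 1 / N := by
      rw [← sub_div]
      ring
    rw [h2] at h1
    have h3 : (1 + ε / 8) / (1 / (N : ℝ)) * DD u ((m : ℝ) / N) (((m : ℝ) + 1) / N) =
        (1 + ε / 8) * (N * DD u ((m : ℝ) / N) (((m : ℝ) + 1) / N)) := by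
      field_simp
    rw [h3] at h1
    have h4 : (1 + ε / 8) * (N * DD u ((m : ℝ) / N) (((m : ℝ) + 1) / N)) ≤
        (1 + ε / 8) * (hTV u + ε / 4) := mul_le_mul_of_nonneg_left hm3 (by positivity)
    have h5 : (1 + ε / 8) * (hTV u + ε / 4) ≤ hTV u + ε := by nlinarith
    linarith
  · intro j k _
    have h1 := hm4 (Sum.inl (j, k))
    have h2 : (if (m : ℝ) / N < u (pt j k 0.065) then (1 : ℝ) else 0) -
        (if ((m + 1 : ℕ) : ℝ) / N < u (pt j k 0.065) then (1 : ℝ) else 0) < ε := h1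
    by_cases h3 : (m : ℝ) / N < u (pt j k 0.065)
    · right
      rw [if_pos h3] at h2
      by_cases h4 : ((m + 1 : ℕ) : ℝ) / N < u (pt j k 0.065)
      · push_cast at h4
        exact hψb _ h4.le
      · rw [if_neg h4] at h2
        linarith
    · left
      exact hψa _ (not_lt.1 h3)
  · intro i j k _ hjk _
    refine ⟨TT u i j k ((m : ℝ) / N), TT_nonneg _, TT_le _, ?_⟩
    have h1 := hm4 (Sum.inr (i, j, k))
    have h2 : TT u i j k ((m : ℝ) / N) - TT u i j k (((m + 1 : ℕ) : ℝ) / N) < ε := h1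
    push_cast at h2
    exact trace_of hu hjk hψa hψb h2

end Vale.Agent.P232
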